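import Vale.Agent.P011Z.Cl.Lie6.D

/-!
Classification of the forms: block Lie6, part E. The big cell.
-/

open Matrix Module

noncomputable section

namespace Vale.Agent.P011Z.Cl.Lie6x

open Vale.Agent.P011.D4 Vale.Agent.P011.D4.Oct Vale.Agent.P011.E6 Vale.Agent.P011.E6.Alb

theorem blk_ici {i j : ℤ} {X Y : EJ} (hX : X ∈ blk (Set.Ici i)) (hY : Y ∈ blk (Set.Ici j)) {k : ℤ}
    (h : k ≤ i + j) : X * Y ∈ blk (Set.Ici k) :=
  blk_mul hX hY fun a ha b hb => by
    simp only [Set.mem_Ici] at *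
    omega

theorem ici_of {j : ℤ} {X : EJ} (hX : X ∈ blk {j}) : X ∈ blk (Set.Ici j) :=
  blk_mono (fun _ hi => (Set.mem_singleton_iff.1 hi).ge) hX

theorem np_smul {X : EJ} (h : Np X) (t : Om) : Np (t • X) :=
  np_iff.2 ⟨h.lie.smul t, (blk _).smul_mem t (np_iff.1 h).2⟩

theorem np_neg {X : EJ} (h : Np X) : Np (-X) :=
  np_iff.2 ⟨h.lie.neg, (blk _).neg_mem (np_iff.1 h).2⟩

theorem ex3_mul {X Y : EJ} (hX : Np X) (hY : Np Y) :
    ex3 Y * ex3 X = ex3 (Y + X + (2⁻¹ : Om) • (Y * X - X * Y)) := by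
  simp only [ex3, mul_add, add_mul, mul_sub, sub_mul, mul_one, one_mul, smul_mul_assoc,
    mul_smul_comm, ← mul_assoc, np_three hX hX hY, np_three hX hY hX,
    np_three hX hY hY, np_three hY hX hX, np_three hY hX hY, np_three hY hY hX,
    zero_mul, smul_zero, sub_self]
  module

theorem ex3_grp {X Y : EJ} (hX : Np X) (hY : Np Y) :
    ∃ Z, Np Z ∧ ex3 Y * ex3 X = ex3 Z ∧ ex3 (-X) * ex3 (-Y) = ex3 (-Z) := by
  refine ⟨_, np_iff.2 ⟨(hY.lie.add hX.lie).add ((hY.lie.br hX.lie).smul _), ?_⟩, ex3_mul hX hY, ?_⟩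
  · have h1 := (np_iff.1 hX).2
    have h2 := (np_iff.1 hY).2
    exact (blk _).add_mem ((blk _).add_mem h2 h1) ((blk _).smul_mem _
      ((blk _).sub_mem (blk_ici h2 h1 (by norm_num)) (blk_ici h1 h2 (by norm_num))))
  · rw [ex3_mul (np_neg hY) (np_neg hX), neg_mul_neg, neg_mul_neg]
    congr 1
    module

theorem ne' {E : EJ} (hE : Lie E) (h0 : E ≠ 0) :
    ∃ X, Np X ∧ LinearMap.trace Om J (ex3 X * EmL * ex3 (-X) * E) ≠ 0 := by
  have := fd_J
  by_contra hc
  push Not at hc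
  have st : ∀ W : EJ, (∀ X, Np X → LinearMap.trace Om J (ex3 X * EmL * ex3 (-X) * W) = 0) →
      ∀ Y, Np Y → ∀ X, Np X →
        LinearMap.trace Om J (ex3 X * EmL * ex3 (-X) * (W * Y - Y * W)) = 0 := by
    intro W hW Y hY X hX
    have k : ∀ t : Om, LinearMap.trace Om J
        (ex3 X * EmL * ex3 (-X) * (ex3 (-(t • Y)) * W * ex3 (t • Y))) = 0 := fun t => by
      obtain ⟨Z, hZ, h1, h2⟩ := ex3_grp hX (np_smul hY t)
      rw [← mul_assoc, LinearMap.trace_mul_comm, ← hW Z hZ, ← h1, ← h2]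
      simp only [mul_assoc]
    have e : ∀ t : Om, ex3 (-(t • Y)) * W * ex3 (t • Y) = W + t • (W * Y - Y * W) +
        t ^ 2 • ((2⁻¹ : Om) • (Y * Y * W + W * Y * Y) - Y * W * Y) +
        t ^ 3 • ((2⁻¹ : Om) • (Y * Y * W * Y - Y * W * Y * Y)) +
        t ^ 4 • ((4⁻¹ : Om) • (Y * Y * W * Y * Y)) := fun t => by
      simp only [ex3, mul_add, add_mul, mul_one, one_mul, smul_mul_assoc, mul_smul_comm, neg_mul,
        mul_neg, ← mul_assoc]
      module
    simp only [e] at k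
    generalize W * Y - Y * W = c1 at k ⊢
    generalize (2⁻¹ : Om) • (Y * Y * W + W * Y * Y) - Y * W * Y = c2 at k
    generalize (2⁻¹ : Om) • (Y * Y * W * Y - Y * W * Y * Y) = c3 at k
    generalize (4⁻¹ : Om) • (Y * Y * W * Y * Y) = c4 at k
    simp only [mul_add, mul_smul_comm, map_add, map_smul, smul_eq_mul] at k
    linear_combination (2 / 3 : Om) * (k 1 - k (-1)) - (12⁻¹ : Om) * (k 2 - k (-2))
  have ind : ∀ (n : ℕ) (W : EJ), Lie W → W ∈ blk (Set.Ici (3 - (n : ℤ))) →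
      (∀ X, Np X → LinearMap.trace Om J (ex3 X * EmL * ex3 (-X) * W) = 0) → W = 0 := by
    intro n
    induction n with
    | zero =>
      exact fun W _ hb _ => blk_zero hb fun j hj => Or.inr (Int.lt_iff_add_one_le.2 (by simpa using hj))
    | succ n ih =>
      intro W hW hb hS
      obtain ⟨a, ha⟩ := cen hW fun Y hY => by
        have h1 := (np_iff.1 hY).2
        exact (sub_eq_zero.1 (ih _ (hW.br hY.lie) ((blk _).sub_mem
          (blk_ici hb h1 (by push_cast; omega)) (blk_ici h1 hb (by push_cast; omega)))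
          (st W hS Y hY))).symm
      have h2 := hS 0 (np_iff.2 ⟨LL.zero_mem, (blk _).zero_mem⟩)
      simp only [ex3, neg_zero, mul_zero, smul_zero, add_zero, one_mul, mul_one, ha, mul_smul_comm,
        map_smul] at h2
      rw [LinearMap.trace_mul_comm, trace_ef, smul_eq_mul, mul_eq_zero] at h2
      rw [ha, h2.resolve_right (by norm_num), zero_smul]
  exact h0 (ind 5 E hE (by simpa using blk_all E) hc)

theorem iv_inj : Function.Injective iv := fun u v h => by rw [← um_iv u, h, um_iv]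

theorem iu_inj : Function.Injective iu := fun u v h => by rw [← up_iu u, h, up_iu]

theorem rank' : finrank Om (LinearMap.range EmL) = 6 ∧ finrank Om (LinearMap.range EpL) = 6 := by
  have h1 : LinearMap.range EmL = LinearMap.range iv := le_antisymm
    (by rintro _ ⟨x, rfl⟩; exact ⟨_, rfl⟩)
    (by rintro _ ⟨x, rfl⟩; exact ⟨iu x, by rw [em_apply, up_iu]⟩)
  have h2 : LinearMap.range EpL = LinearMap.range iu := le_antisymm
    (by rintro _ ⟨x, rfl⟩; exact ⟨_, rfl⟩)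
    (by rintro _ ⟨x, rfl⟩; exact ⟨iv x, by rw [ep_apply, um_iv]⟩)
  rw [h1, h2, LinearMap.finrank_range_of_inj iv_inj, LinearMap.finrank_range_of_inj iu_inj]
  simp

theorem repos0 {E : EJ} (hE : Lie E) (hr : finrank Om (LinearMap.range E) ≤ 6) {a : Om}
    (ha : a ≠ 0) (hb : E - a • EmL ∈ blk (Set.Ici 0)) :
    ∃ t : Om, E = a • (ex3 (t • EpL) * EmL * ex3 (-(t • EpL))) := by
  have := fd_J
  obtain ⟨R, rfl⟩ : ∃ R, E = R + a • EmL := ⟨E - a • EmL, (sub_add_cancel _ _).symm⟩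
  rw [add_sub_cancel_right] at hb
  generalize hE' : R + a • EmL = E at hE hr ⊢
  have e0 : ∀ x, E x = R x + a • iv (up x) := fun x => by
    rw [← hE']
    rfl
  have u1 : ∀ u, um (E (iu u)) = a • u := fun u => by
    rw [e0, um_add, um_smul, um_iv, up_iu, ← pr0_iu, um_of_pr (ent hb (by decide) _), zero_add]
  have o1 : ∀ u, om6 (E (iu u)) = 0 := fun u => by
    rw [e0, om_add, om_smul, om_iv, ← pr0_iu, om_of_pr (ent hb (by decide) _), smul_zero, zero_add]
  have u2 : ∀ x, um (E (pr 1 x)) = 0 := fun x => by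
    rw [e0, um_add, um_smul, um_iv, up_pr1, um_of_pr (ent hb (by decide) _), smul_zero, zero_add]
  have hi : Function.Injective (E ∘ₗ iu) := fun u v h => smul_right_injective _ ha (by
    change a • u = a • v
    rw [← u1, ← u1]
    exact congrArg um h)
  have hR : LinearMap.range (E ∘ₗ iu) = LinearMap.range E :=
    Submodule.eq_of_le_of_finrank_le (LinearMap.range_comp_le_range _ _) (by
      rw [LinearMap.finrank_range_of_inj hi]
      simpa using hr)
  have ex : ∀ x, ∃ u, E x = E (iu u) := fun x => by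
    obtain ⟨u, hu⟩ := hR.ge (LinearMap.mem_range_self E x)
    exact ⟨u, hu.symm⟩
  have m0 : ∀ x, E (pr 1 x) = 0 := fun x => by
    obtain ⟨u, hu⟩ := ex (pr 1 x)
    have h1 := u2 x
    rw [hu, u1, smul_eq_zero] at h1
    rw [hu, h1.resolve_left ha, map_zero, map_zero]
  have o2 : ∀ x, om6 (E x) = 0 := fun x => by
    obtain ⟨u, hu⟩ := ex x
    rw [hu, o1]
  obtain ⟨c, h1, h2⟩ := block (φ := upL ∘ₗ E ∘ₗ iu) (ψ := umL ∘ₗ E ∘ₗ iv) fun u v w hw => by
    have h3 := hE.tri (iu u) (pr 1 (d6 0 w 0)) (iv v)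
    rw [m0, cross_zero_right, tf_zero_left, add_zero, t6, t6 (iu u), pr1_iu, pr1_iv] at h3
    simp only [up_pr1, um_pr1, om_pr1, (im_six hw).2.1, o2, up_iu, om_iu, um_iu, up_iv, om_iv, um_iv,
      zero_mulVec, mulVec_zero, dotProduct_zero, zero_dotProduct, add_zero, zero_add,
      tf_zero_right, cross_zero_left, tf_zero_left] at h3
    exact h3
  have h1' : ∀ u, up (E (iu u)) = c • u := h1
  have h2' : ∀ u, um (E (iv u)) = -c • u := h2
  have u3 : ∀ x, um (E x) = a • up x - c • um x := fun x => by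
    conv_lhs => rw [← sum_pr_apply x, map_add, map_add, m0, add_zero, pr0_apply, pr2_apply, um_add,
      u1, h2', neg_smul, ← sub_eq_add_neg]
  have u4 : ∀ x, up (E x) = (c / a) • um (E x) := fun x => by
    obtain ⟨u, hu⟩ := ex x
    rw [hu, u1, h1', smul_smul, div_mul_cancel₀ _ ha]
  refine ⟨c / a, ?_⟩
  have e1 : ∀ t : Om, ex3 (t • EpL) = 1 + t • EpL := fun t => by
    rw [ex3, smul_mul_assoc, mul_smul_comm, ee_zero, smul_zero, smul_zero, smul_zero, add_zero]
  rw [← neg_smul, e1, e1]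
  refine LinearMap.ext fun x => six_ext ?_ ?_ ?_ <;>
    simp only [LinearMap.smul_apply, Module.End.mul_apply, LinearMap.add_apply,
      Module.End.one_apply, ep_apply, em_apply, up_add, om_add, um_add, up_smul, om_smul, um_smul,
      up_iu, om_iu, um_iu, up_iv, om_iv, um_iv, u4, u3, o2, smul_zero, add_zero, zero_add]
  · match_scalars <;> field_simp
  · match_scalars <;> field_simp

theorem repos' {E : EJ} (hE : Lie E) (hr : finrank Om (LinearMap.range E) ≤ 6)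
    (ht : LinearMap.trace Om J (EpL * E) ≠ 0) :
    ∃ (X : EJ) (a : Om), Np X ∧ a ≠ 0 ∧ E = a • (ex3 X * EmL * ex3 (-X)) := by
  have := fd_J
  obtain ⟨l2, l1, l0, l3, l4⟩ := lie_cmp hE
  obtain ⟨a, ha⟩ := degm2 l4 (cmp_mem (-2) E)
  have a0 : a ≠ 0 := by
    rintro rfl
    have h1 := sub_cmp (-2) E
    rw [ha, zero_smul, sub_zero] at h1
    exact ht (blk_trace (blk_mul (r := {0}ᶜ) ep_blk h1 fun i hi j hj => by
      simp only [Set.mem_compl_iff, Set.mem_singleton_iff] at *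
      omega) (by simp))
  have hV := cmp_mem (-1) E
  obtain ⟨R, hR, e0⟩ : ∃ R ∈ blk (Set.Ici 0), E = R + cmp (-1) E + a • EmL :=
    ⟨cmp 2 E + cmp 1 E + cmp 0 E, (blk _).add_mem ((blk _).add_mem
      (blk_mono (by simp) (cmp_mem 2 E)) (blk_mono (by simp) (cmp_mem 1 E)))
      (ici_of (cmp_mem 0 E)), ha ▸ sum_cmp E⟩
  generalize cmp (-1) E = V at l3 hV e0
  have hY : Np (-a⁻¹ • (EpL * V - V * EpL)) :=
    np_smul (np_of_blk (by norm_num) (lie_ep.br l3) (blk_br ep_blk hV)) _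
  have e1 : V + a • (EmL * (-a⁻¹ • (EpL * V - V * EpL)) - (-a⁻¹ • (EpL * V - V * EpL)) * EmL) =
      0 := by
    rw [mul_smul_comm, smul_mul_assoc, ← smul_sub, br_neg hV, smul_smul, mul_neg,
      mul_inv_cancel₀ a0, neg_one_smul, add_neg_cancel]
  generalize -a⁻¹ • (EpL * V - V * EpL) = Y at hY e1
  have h3 := np_three hY hY hY
  obtain ⟨i1, i2⟩ := ex3_neg h3
  obtain ⟨ψ, p1, p2, p3⟩ := exists_ex3 hY.lie h3
  have hs : Sim 1 ψ.symm := (sim_of_cub (l := 1) fun x => by rw [p1, one_mul]).symm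
  have e2 : ∀ x, (ex3 (-Y) * E * ex3 Y) (ψ.symm x) = ψ.symm (E x) := fun x => by
    rw [Module.End.mul_apply, ← p2, ψ.apply_symm_apply, p3]
    rfl
  obtain ⟨t, h4⟩ := repos0 (hE.semi hs e2) ((trace_semi hs.toSemi e2).2.trans_le hr) a0 (by
    have y1 := (np_iff.1 hY).2
    obtain ⟨P, y2, hP⟩ : ∃ P ∈ blk (Set.Ici 2), P = (2⁻¹ : Om) • (Y * Y) :=
      ⟨_, (blk _).smul_mem _ (blk_ici y1 y1 (by norm_num)), rfl⟩
    have y3 : P ∈ blk (Set.Ici 1) := blk_mono (Set.Ici_subset_Ici.2 (by norm_num)) y2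
    have y4 := (blk _).add_mem y1 y3
    have y5 := (blk _).sub_mem y3 y1
    have v1 := ici_of hV
    have f1 := ici_of em_blk
    have e3 : ex3 (-Y) * E * ex3 Y - a • EmL =
        (V + a • (EmL * Y - Y * EmL)) + (R + (P - Y) * R + R * (Y + P) + (P - Y) * R * (Y + P)) +
        ((P - Y) * V + V * (Y + P) + (P - Y) * V * (Y + P)) +
        a • (P * EmL + EmL * P + (P - Y) * EmL * (Y + P)) := by
      rw [ex3, ex3, neg_mul_neg, ← hP, e0]
      simp only [mul_add, add_mul, sub_mul, mul_one, one_mul, smul_mul_assoc, mul_smul_comm,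
        neg_mul]
      module
    rw [e3, e1, zero_add]
    refine (blk _).add_mem ((blk _).add_mem ((blk _).add_mem ((blk _).add_mem ((blk _).add_mem hR
      (blk_ici y5 hR (by norm_num))) (blk_ici hR y4 (by norm_num)))
      (blk_ici (blk_ici y5 hR le_rfl) y4 (by norm_num)))
      ((blk _).add_mem ((blk _).add_mem (blk_ici y5 v1 (by norm_num))
      (blk_ici v1 y4 (by norm_num))) (blk_ici (blk_ici y5 v1 le_rfl) y4 (by norm_num))))
      ((blk _).smul_mem _ ((blk _).add_mem ((blk _).add_mem (blk_ici y2 f1 (by norm_num))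
      (blk_ici f1 y2 (by norm_num))) (blk_ici (blk_ici y5 f1 le_rfl) y4 (by norm_num)))))
  obtain ⟨Z, hZ, z1, z2⟩ := ex3_grp (np_smul np_ep t) hY
  refine ⟨Z, a, hZ, a0, ?_⟩
  have e4 : E = ex3 Y * (ex3 (-Y) * E * ex3 Y) * ex3 (-Y) := by
    rw [← mul_assoc, ← mul_assoc, i1, one_mul, mul_assoc, i1, mul_one]
  rw [e4, h4, ← z1, ← z2]
  simp only [mul_smul_comm, smul_mul_assoc, mul_assoc]

theorem dg1_iff {X : EJ} : (Np X ∧ ∀ x, up x = 0 → om6 x = 0 → up (X x) = 0) ↔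
    Lie X ∧ X ∈ blk {1} := by
  constructor
  · rintro ⟨h1, h2⟩
    refine ⟨h1.lie, fun a b hab => ?_⟩
    by_cases h : wt a - wt b ∈ Set.Ici (1 : ℤ)
    · obtain ⟨rfl, rfl⟩ : a = 0 ∧ b = 2 := by
        revert a b
        decide
      refine LinearMap.ext fun x => ?_
      change pr 0 (X (pr 2 x)) = 0
      rw [pr0_apply, pr2_apply, h2 _ (up_iv _) (om_iv _), map_zero]
    · exact (np_iff.1 h1).2 a b h
  · rintro ⟨h1, h2⟩
    refine ⟨np_of_blk le_rfl h1 h2, fun x a b => ?_⟩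
    rw [eq_iv b a, ← pr2_iv]
    exact up_of_pr (ent h2 (by decide) _)

theorem gg_ne : gg (bv (0, 0)) (bv (1, 0)) (bv (2, 0)) ≠ 0 := fun h => by
  have h1 := gg_dot (bv (0, 0)) (bv (1, 0)) (bv (2, 0)) (bv (0, 0)) (bv (1, 0)) (bv (2, 0))
  simp [h, om_zero, bv_dot, bv_apply] at h1

end Vale.Agent.P011Z.Cl.Lie6x

end
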