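import Vale.Agent.P011Z.Cl.Lie

/-!
Classification of the forms: block Lie6, part A. The grading of the endomorphisms.
-/

open Matrix Module

noncomputable section

namespace Vale.Agent.P011Z.Cl.Lie6x

open Vale.Agent.P011.D4 Vale.Agent.P011.D4.Oct Vale.Agent.P011.E6 Vale.Agent.P011.E6.Alb

/-- The endomorphisms. -/
abbrev EJ : Type := Module.End Om J

theorem up_add (x y : J) : up (x + y) = up x + up y := six_lin.1.map_add x y

theorem um_add (x y : J) : um (x + y) = um x + um y := six_lin.2.1.map_add x y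

theorem om_add (x y : J) : om6 (x + y) = om6 x + om6 y := six_lin.2.2.map_add x y

theorem up_sub (x y : J) : up (x - y) = up x - up y := six_lin.1.map_sub x y

theorem um_sub (x y : J) : um (x - y) = um x - um y := six_lin.2.1.map_sub x y

theorem om_sub (x y : J) : om6 (x - y) = om6 x - om6 y := six_lin.2.2.map_sub x y

theorem up_smul (t : Om) (x : J) : up (t • x) = t • up x := six_lin.1.map_smul t x

theorem um_smul (t : Om) (x : J) : um (t • x) = t • um x := six_lin.2.1.map_smul t x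

theorem om_smul (t : Om) (x : J) : om6 (t • x) = t • om6 x := six_lin.2.2.map_smul t x

theorem up_zero : up 0 = 0 := six_lin.1.map_zero

theorem um_zero : um 0 = 0 := six_lin.2.1.map_zero

theorem om_zero : om6 0 = 0 := six_lin.2.2.map_zero

/-- The first six. -/
def iu : (I6 → Om) →ₗ[Om] J where
  toFun u := d6 u 0 0
  map_add' u v := six_ext
    (by simp only [up_add, six_d6 _ _ ZDx.alt0]) (by simp only [om_add, six_d6 _ _ ZDx.alt0, add_zero])
    (by simp only [um_add, six_d6 _ _ ZDx.alt0, add_zero])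
  map_smul' t u := six_ext
    (by simp only [up_smul, six_d6 _ _ ZDx.alt0, RingHom.id_apply])
    (by simp only [om_smul, six_d6 _ _ ZDx.alt0, smul_zero])
    (by simp only [um_smul, six_d6 _ _ ZDx.alt0, smul_zero])

/-- The last six. -/
def iv : (I6 → Om) →ₗ[Om] J where
  toFun u := d6 0 0 u
  map_add' u v := six_ext
    (by simp only [up_add, six_d6 _ _ ZDx.alt0, add_zero])
    (by simp only [om_add, six_d6 _ _ ZDx.alt0, add_zero])
    (by simp only [um_add, six_d6 _ _ ZDx.alt0])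
  map_smul' t u := six_ext
    (by simp only [up_smul, six_d6 _ _ ZDx.alt0, smul_zero])
    (by simp only [om_smul, six_d6 _ _ ZDx.alt0, smul_zero])
    (by simp only [um_smul, six_d6 _ _ ZDx.alt0, RingHom.id_apply])

/-- The first projection. -/
def upL : J →ₗ[Om] (I6 → Om) := six_lin.1.mk' _

/-- The last projection. -/
def umL : J →ₗ[Om] (I6 → Om) := six_lin.2.1.mk' _

theorem up_iu (u : I6 → Om) : up (iu u) = u := (six_d6 _ _ ZDx.alt0).1

theorem om_iu (u : I6 → Om) : om6 (iu u) = 0 := (six_d6 _ _ ZDx.alt0).2.1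

theorem um_iu (u : I6 → Om) : um (iu u) = 0 := (six_d6 _ _ ZDx.alt0).2.2

theorem up_iv (u : I6 → Om) : up (iv u) = 0 := (six_d6 _ _ ZDx.alt0).1

theorem om_iv (u : I6 → Om) : om6 (iv u) = 0 := (six_d6 _ _ ZDx.alt0).2.1

theorem um_iv (u : I6 → Om) : um (iv u) = u := (six_d6 _ _ ZDx.alt0).2.2

theorem ep_apply (x : J) : EpL x = iu (um x) := rfl

theorem em_apply (x : J) : EmL x = iv (up x) := rfl

/-- The three projections. -/
def pr : Fin 3 → EJ := ![EpL * EmL, 1 - EpL * EmL - EmL * EpL, EmL * EpL]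

/-- The weights. -/
def wt : Fin 3 → ℤ := ![1, 0, -1]

/-- The grading element. -/
def hh : EJ := EpL * EmL - EmL * EpL

theorem pr0_apply (x : J) : pr 0 x = iu (up x) := by
  change EpL (EmL x) = _
  rw [ep_apply, em_apply, um_iv]

theorem pr2_apply (x : J) : pr 2 x = iv (um x) := by
  change EmL (EpL x) = _
  rw [em_apply, ep_apply, up_iu]

theorem pr1_apply (x : J) : pr 1 x = x - iu (up x) - iv (um x) := by
  rw [← pr0_apply, ← pr2_apply]
  rfl

theorem up_pr1 (x : J) : up (pr 1 x) = 0 := by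
  rw [pr1_apply, up_sub, up_sub, up_iu, up_iv, sub_self, sub_zero]

theorem um_pr1 (x : J) : um (pr 1 x) = 0 := by
  rw [pr1_apply, um_sub, um_sub, um_iu, um_iv, sub_zero, sub_self]

theorem om_pr1 (x : J) : om6 (pr 1 x) = om6 x := by
  rw [pr1_apply, om_sub, om_sub, om_iu, om_iv, sub_zero, sub_zero]

theorem pr1_eq (x : J) : pr 1 x = d6 0 (om6 x) 0 :=
  six_ext (by rw [up_pr1, (six_d6 _ _ (om6_alt x)).1]) (by rw [om_pr1, (six_d6 _ _ (om6_alt x)).2.1])
    (by rw [um_pr1, (six_d6 _ _ (om6_alt x)).2.2])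

theorem pr1_zero {x : J} (h : om6 x = 0) : pr 1 x = 0 :=
  six_ext (by rw [up_pr1, up_zero]) (by rw [om_pr1, om_zero, h]) (by rw [um_pr1, um_zero])

theorem sum_pr : ∑ a, pr a = 1 := by
  rw [Fin.sum_univ_three]
  change EpL * EmL + (1 - EpL * EmL - EmL * EpL) + EmL * EpL = 1
  abel

theorem sum_pr_apply (x : J) : pr 0 x + pr 1 x + pr 2 x = x := by
  rw [pr1_apply, pr0_apply, pr2_apply]
  abel

theorem pr_mul (a b : Fin 3) : pr a * pr b = if a = b then pr a else 0 := by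
  refine LinearMap.ext fun x => ?_
  fin_cases a <;> fin_cases b <;> refine six_ext ?_ ?_ ?_ <;>
    simp [pr0_apply, pr2_apply, up_pr1, um_pr1, om_pr1, up_iu, om_iu, um_iu, up_iv, om_iv, um_iv,
      up_zero, om_zero, um_zero]

theorem pr_self (a : Fin 3) : pr a * pr a = pr a := by rw [pr_mul, if_pos rfl]

theorem hh_eq : hh = pr 0 - pr 2 := rfl

theorem pr_hh (a : Fin 3) : pr a * hh = (wt a : Om) • pr a := by
  rw [hh_eq, mul_sub, pr_mul, pr_mul]
  fin_cases a <;> simp [wt]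

theorem hh_pr (a : Fin 3) : hh * pr a = (wt a : Om) • pr a := by
  rw [hh_eq, sub_mul, pr_mul, pr_mul]
  fin_cases a <;> simp [wt]

theorem eq_sum (Z : EJ) : Z = ∑ a, ∑ b, pr a * Z * pr b := by
  simp only [← Finset.mul_sum, ← Finset.sum_mul, sum_pr, mul_one, one_mul]

/-- The endomorphisms with degrees in `s`. -/
def blk (s : Set ℤ) : Submodule Om EJ where
  carrier := {Z | ∀ a b, wt a - wt b ∉ s → pr a * Z * pr b = 0}
  add_mem' := fun {X Y} hX hY a b h => by rw [mul_add, add_mul, hX a b h, hY a b h, add_zero]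
  zero_mem' := fun a b _ => by rw [mul_zero, zero_mul]
  smul_mem' := fun t X hX a b h => by rw [mul_smul_comm, smul_mul_assoc, hX a b h, smul_zero]

theorem blk_mono {s t : Set ℤ} (h : s ⊆ t) {Z : EJ} (hZ : Z ∈ blk s) : Z ∈ blk t :=
  fun a b h1 => hZ a b fun h2 => h1 (h h2)

theorem blk_mul {s t r : Set ℤ} {X Y : EJ} (hX : X ∈ blk s) (hY : Y ∈ blk t)
    (h : ∀ i ∈ s, ∀ j ∈ t, i + j ∈ r) : X * Y ∈ blk r := by
  intro a b hab
  have h1 : pr a * (X * Y) * pr b = ∑ c, (pr a * X * pr c) * (pr c * Y * pr b) := by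
    have h2 : ∀ c, (pr a * X * pr c) * (pr c * Y * pr b) = pr a * X * pr c * (Y * pr b) :=
      fun c => by rw [mul_assoc (pr c), ← mul_assoc, mul_assoc (pr a * X), pr_self]
    simp only [h2]
    rw [← Finset.sum_mul, ← Finset.mul_sum, sum_pr, mul_one]
    simp only [mul_assoc]
  rw [h1]
  refine Finset.sum_eq_zero fun c _ => ?_
  by_cases h3 : wt a - wt c ∈ s
  · rw [hY c b fun h4 => hab ?_, mul_zero]
    have h5 := h _ h3 _ h4
    rwa [sub_add_sub_cancel] at h5
  · rw [hX a c h3, zero_mul]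

theorem blk_zero {s : Set ℤ} {Z : EJ} (hZ : Z ∈ blk s) (h : ∀ j ∈ s, j < -2 ∨ 2 < j) : Z = 0 := by
  rw [eq_sum Z]
  refine Finset.sum_eq_zero fun a _ => Finset.sum_eq_zero fun b _ => hZ a b fun h1 => ?_
  have h2 := h _ h1
  fin_cases a <;> fin_cases b <;> simp [wt] at h2

theorem blk_all (Z : EJ) : Z ∈ blk (Set.Ici (-2)) := by
  intro a b h
  refine absurd ?_ h
  fin_cases a <;> fin_cases b <;> simp [wt]

theorem blk_trace {s : Set ℤ} {Z : EJ} (hZ : Z ∈ blk s) (h : (0 : ℤ) ∉ s) :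
    LinearMap.trace Om J Z = 0 := by
  have h1 : Z = ∑ a, pr a * (pr a * Z) := by
    simp only [← mul_assoc, pr_self, ← Finset.sum_mul, sum_pr, one_mul]
  rw [h1, map_sum]
  refine Finset.sum_eq_zero fun a _ => ?_
  rw [LinearMap.trace_mul_comm, hZ a a (by rwa [sub_self]), map_zero]

theorem pr_ad (Z : EJ) (a b : Fin 3) :
    pr a * (hh * Z - Z * hh) * pr b = ((wt a - wt b : ℤ) : Om) • (pr a * Z * pr b) := by
  have h1 : pr a * (hh * Z - Z * hh) * pr b = pr a * hh * Z * pr b - pr a * Z * (hh * pr b) := by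
    simp only [mul_sub, sub_mul, mul_assoc]
  rw [h1, pr_hh, hh_pr, smul_mul_assoc, smul_mul_assoc, mul_smul_comm, ← sub_smul, Int.cast_sub]

theorem blk_ad {j : ℤ} {Z : EJ} (hZ : Z ∈ blk {j}) : hh * Z - Z * hh = (j : Om) • Z := by
  rw [eq_sum (hh * Z - Z * hh), eq_sum ((j : Om) • Z)]
  refine Finset.sum_congr rfl fun a _ => Finset.sum_congr rfl fun b _ => ?_
  rw [pr_ad, mul_smul_comm, smul_mul_assoc]
  by_cases h : wt a - wt b = j
  · rw [h]
  · rw [hZ a b h, smul_zero, smul_zero]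

theorem blk_of_ad {j : ℤ} {Z : EJ} (h : hh * Z - Z * hh = (j : Om) • Z) : Z ∈ blk {j} := by
  intro a b hab
  have h1 := pr_ad Z a b
  rw [h, mul_smul_comm, smul_mul_assoc, ← sub_eq_zero, ← sub_smul, smul_eq_zero, sub_eq_zero,
    Int.cast_inj] at h1
  exact h1.resolve_left fun h2 => hab h2.symm

/-- The component of degree `j`. -/
def cmp (j : ℤ) (Z : EJ) : EJ := ∑ a, ∑ b, if wt a - wt b = j then pr a * Z * pr b else 0

theorem pr_cmp (j : ℤ) (Z : EJ) (a b : Fin 3) :
    pr a * cmp j Z * pr b = if wt a - wt b = j then pr a * Z * pr b else 0 := by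
  have h1 : ∀ c d, pr a * (if wt c - wt d = j then pr c * Z * pr d else 0) * pr b =
      if a = c then if d = b then (if wt a - wt b = j then pr a * Z * pr b else 0) else 0
        else 0 := by
    intro c d
    by_cases h2 : a = c
    · subst h2
      by_cases h3 : d = b
      · subst h3
        split_ifs
        · rw [← mul_assoc, ← mul_assoc, pr_self, mul_assoc, pr_self]
        all_goals simp_all
      · split_ifs
        · rw [mul_assoc, mul_assoc, pr_mul, if_neg h3, mul_zero, mul_zero]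
        all_goals simp_all
    · split_ifs
      · rw [← mul_assoc, ← mul_assoc, pr_mul, if_neg h2, zero_mul, zero_mul, zero_mul]
      · rw [mul_zero, zero_mul]
  simp only [cmp, Finset.mul_sum, Finset.sum_mul, h1, Finset.sum_ite_eq, Finset.sum_ite_eq',
    Finset.mem_univ, if_true, Finset.sum_ite_irrel, Finset.sum_const_zero]

theorem cmp_mem (j : ℤ) (Z : EJ) : cmp j Z ∈ blk {j} := fun a b h => by
  rw [pr_cmp, if_neg (show ¬ wt a - wt b = j from h)]

theorem sub_cmp (j : ℤ) (Z : EJ) : Z - cmp j Z ∈ blk {j}ᶜ := fun a b h => by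
  rw [mul_sub, sub_mul, pr_cmp, if_pos (by simpa using h), sub_self]

theorem sum_cmp (Z : EJ) : Z = cmp 2 Z + cmp 1 Z + cmp 0 Z + cmp (-1) Z + cmp (-2) Z := by
  rw [eq_sum (cmp 2 Z + cmp 1 Z + cmp 0 Z + cmp (-1) Z + cmp (-2) Z)]
  conv_lhs => rw [eq_sum Z]
  refine Finset.sum_congr rfl fun a _ => Finset.sum_congr rfl fun b _ => ?_
  simp only [mul_add, add_mul, pr_cmp]
  fin_cases a <;> fin_cases b <;> simp [wt]

/-- A subspace which is stable under the grading element is graded. -/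
theorem cmp_stab {L : Submodule Om EJ} (hL : ∀ Z ∈ L, hh * Z - Z * hh ∈ L) {Z : EJ} (hZ : Z ∈ L) :
    cmp 2 Z ∈ L ∧ cmp 1 Z ∈ L ∧ cmp 0 Z ∈ L ∧ cmp (-1) Z ∈ L ∧ cmp (-2) Z ∈ L := by
  obtain ⟨A, hA⟩ : ∃ A : EJ →ₗ[Om] EJ, ∀ W, A W = hh * W - W * hh :=
    ⟨LinearMap.mulLeft Om hh - LinearMap.mulRight Om hh, fun _ => rfl⟩
  have k : ∀ W ∈ L, A W ∈ L := fun W hW => by
    rw [hA]
    exact hL W hW
  have c : ∀ j : ℤ, A (cmp j Z) = (j : Om) • cmp j Z := fun j => by
    rw [hA]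
    exact blk_ad (cmp_mem j Z)
  have v1 := k _ hZ
  have v2 := k _ v1
  have v3 := k _ v2
  have v4 := k _ v3
  have e0 := sum_cmp Z
  have e1 : A Z = (2 : Om) • cmp 2 Z + cmp 1 Z - cmp (-1) Z - (2 : Om) • cmp (-2) Z := by
    conv_lhs => rw [e0]
    simp only [map_add, c]
    push_cast
    module
  have e2 : A (A Z) = (4 : Om) • cmp 2 Z + cmp 1 Z + cmp (-1) Z + (4 : Om) • cmp (-2) Z := by
    rw [e1]
    simp only [map_add, map_sub, map_smul, c]
    push_cast
    module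
  have e3 : A (A (A Z)) = (8 : Om) • cmp 2 Z + cmp 1 Z - cmp (-1) Z - (8 : Om) • cmp (-2) Z := by
    rw [e2]
    simp only [map_add, map_smul, c]
    push_cast
    module
  have e4 : A (A (A (A Z))) =
      (16 : Om) • cmp 2 Z + cmp 1 Z + cmp (-1) Z + (16 : Om) • cmp (-2) Z := by
    rw [e3]
    simp only [map_add, map_sub, map_smul, c]
    push_cast
    module
  have g : ∀ s0 s1 s2 s3 s4 : Om, s0 • Z + s1 • A Z + s2 • A (A Z) + s3 • A (A (A Z)) +
      s4 • A (A (A (A Z))) ∈ L := fun s0 s1 s2 s3 s4 =>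
    L.add_mem (L.add_mem (L.add_mem (L.add_mem (L.smul_mem _ hZ) (L.smul_mem _ v1))
      (L.smul_mem _ v2)) (L.smul_mem _ v3)) (L.smul_mem _ v4)
  rw [e4, e3, e2, e1] at g
  have m2 : cmp 2 Z ∈ L := by
    refine Eq.subst (motive := fun W => W ∈ L) ?_ (g 0 (-2 / 24) (-1 / 24) (2 / 24) (1 / 24))
    module
  have m1 : cmp 1 Z ∈ L := by
    refine Eq.subst (motive := fun W => W ∈ L) ?_ (g 0 (4 / 6) (4 / 6) (-1 / 6) (-1 / 6))
    module
  have m3 : cmp (-1) Z ∈ L := by
    refine Eq.subst (motive := fun W => W ∈ L) ?_ (g 0 (-4 / 6) (4 / 6) (1 / 6) (-1 / 6))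
    module
  have m4 : cmp (-2) Z ∈ L := by
    refine Eq.subst (motive := fun W => W ∈ L) ?_ (g 0 (2 / 24) (-1 / 24) (-2 / 24) (1 / 24))
    module
  refine ⟨m2, m1, ?_, m3, m4⟩
  have e5 : cmp 0 Z = Z - cmp 2 Z - cmp 1 Z - cmp (-1) Z - cmp (-2) Z := by
    nth_rewrite 2 [e0]
    abel
  rw [e5]
  exact L.sub_mem (L.sub_mem (L.sub_mem (L.sub_mem hZ m2) m1) m3) m4

/-- The Lie algebra as a subspace. -/
def LL : Submodule Om EJ where
  carrier := {Z | Lie Z}
  add_mem' := fun hX hY => Lie.add hX hY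
  zero_mem' := fun _ => tf_zero_right _
  smul_mem' := fun t _ hX => Lie.smul hX t

theorem lie_hh : Lie hh := lie_ep.br lie_em

theorem lie_cmp {Z : EJ} (hZ : Lie Z) : Lie (cmp 2 Z) ∧ Lie (cmp 1 Z) ∧ Lie (cmp 0 Z) ∧
    Lie (cmp (-1) Z) ∧ Lie (cmp (-2) Z) :=
  cmp_stab (L := LL) (fun _ hW => lie_hh.br hW) hZ

theorem ee_zero : EpL * EpL = 0 := LinearMap.ext fun x => by
  change EpL (EpL x) = 0
  rw [ep_apply, ep_apply, um_iu, map_zero]

theorem ff_zero : EmL * EmL = 0 := LinearMap.ext fun x => by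
  change EmL (EmL x) = 0
  rw [em_apply, em_apply, up_iv, map_zero]

theorem efe : EpL * EmL * EpL = EpL := LinearMap.ext fun x => by
  change EpL (EmL (EpL x)) = EpL x
  simp only [ep_apply, em_apply, up_iu, um_iv]

theorem fef : EmL * EpL * EmL = EmL := LinearMap.ext fun x => by
  change EmL (EpL (EmL x)) = EmL x
  simp only [ep_apply, em_apply, up_iu, um_iv]

theorem ep_blk : EpL ∈ blk {2} := by
  refine blk_of_ad ?_
  rw [hh, sub_mul, mul_sub, efe, mul_assoc EmL, ee_zero, ← mul_assoc, ee_zero, ← mul_assoc, efe]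
  push_cast
  simp only [mul_zero, zero_mul]
  module

theorem em_blk : EmL ∈ blk {-2} := by
  refine blk_of_ad ?_
  rw [hh, sub_mul, mul_sub, fef, mul_assoc EpL, ff_zero, ← mul_assoc, fef, ← mul_assoc, ff_zero]
  push_cast
  simp only [mul_zero, zero_mul]
  module

theorem hh_ne : hh ≠ 0 := fun h => by
  have h1 := congrArg (fun Z : EJ => up (Z (iu 1))) h
  simp only [hh_eq, LinearMap.sub_apply, pr0_apply, pr2_apply, up_sub, up_iu, up_iv, sub_zero,
    LinearMap.zero_apply, up_zero] at h1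
  exact one_ne_zero h1

theorem mul_pr {s : Set ℤ} {Z : EJ} (hZ : Z ∈ blk s) {b : Fin 3} (h : ∀ a, wt a - wt b ∉ s) :
    Z * pr b = 0 := by
  rw [← one_mul Z, ← sum_pr, Finset.sum_mul, Finset.sum_mul]
  exact Finset.sum_eq_zero fun a _ => hZ a b (h a)

theorem pr_mul_blk {s : Set ℤ} {Z : EJ} (hZ : Z ∈ blk s) {a : Fin 3} (h : ∀ b, wt a - wt b ∉ s) :
    pr a * Z = 0 := by
  rw [← mul_one Z, ← sum_pr, Finset.mul_sum, Finset.mul_sum]
  exact Finset.sum_eq_zero fun b _ => (mul_assoc _ _ _).symm.trans (hZ a b (h b))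

theorem up_of_pr {y : J} (h : pr 0 y = 0) : up y = 0 := by
  rw [← up_iu (up y), ← pr0_apply, h, up_zero]

theorem um_of_pr {y : J} (h : pr 2 y = 0) : um y = 0 := by
  rw [← um_iv (um y), ← pr2_apply, h, um_zero]

theorem om_of_pr {y : J} (h : pr 1 y = 0) : om6 y = 0 := by
  rw [← om_pr1, h, om_zero]

theorem fil_cases : ∀ a b : Fin 3, wt a - wt b < 1 → b = 0 ∨ a = 2 ∨ (a = 1 ∧ b = 1) := by
  decide

theorem np_iff {X : EJ} : Np X ↔ Lie X ∧ X ∈ blk (Set.Ici 1) := by
  constructor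
  · intro h
    refine ⟨h.lie, fun a b hab => LinearMap.ext fun x => ?_⟩
    change pr a (X (pr b x)) = 0
    have h0 : X (pr 0 x) = 0 := h.p _ (by rw [pr0_apply, om_iu]) (by rw [pr0_apply, um_iu])
    have h2 : ∀ y, pr 2 (X y) = 0 := fun y => by rw [pr2_apply, h.m, map_zero]
    have h1 : pr 1 (X (pr 1 x)) = 0 := pr1_zero (h.o _ (um_pr1 x))
    rcases fil_cases a b (not_le.1 hab) with rfl | rfl | ⟨rfl, rfl⟩
    · rw [h0, map_zero]
    · exact h2 _
    · exact h1
  · rintro ⟨h1, h2⟩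
    have k0 : X * pr 0 = 0 := mul_pr h2 fun a => by fin_cases a <;> simp [wt]
    have k2 : pr 2 * X = 0 := pr_mul_blk h2 fun a => by fin_cases a <;> simp [wt]
    have k1 : pr 1 * X * pr 1 = 0 := h2 1 1 (by simp)
    refine ⟨h1, fun x a b => ?_, fun x a => om_of_pr ?_, fun x =>
      um_of_pr (LinearMap.congr_fun k2 x)⟩
    · rw [← sum_pr_apply x, pr1_zero a, pr2_apply, b, map_zero, add_zero, add_zero]
      exact LinearMap.congr_fun k0 x
    · rw [← sum_pr_apply x, pr2_apply, a, map_zero, add_zero, map_add, map_add]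
      have h3 : X (pr 0 x) = 0 := LinearMap.congr_fun k0 x
      rw [h3, map_zero, zero_add]
      exact LinearMap.congr_fun k1 x

theorem np_of_blk {j : ℤ} (hj : 1 ≤ j) {X : EJ} (h : Lie X) (hX : X ∈ blk {j}) : Np X :=
  np_iff.2 ⟨h, blk_mono (fun i hi => by rw [Set.mem_singleton_iff.1 hi]; exact hj) hX⟩

theorem np_ep : Np EpL := np_of_blk (by norm_num) lie_ep ep_blk

theorem np_three {X Y Z : EJ} (hX : Np X) (hY : Np Y) (hZ : Np Z) : X * Y * Z = 0 := by
  have h1 : X * Y ∈ blk (Set.Ici 2) := blk_mul (np_iff.1 hX).2 (np_iff.1 hY).2 fun i hi j hj => by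
    simp only [Set.mem_Ici] at *
    omega
  have h2 : X * Y * Z ∈ blk (Set.Ici 3) := blk_mul h1 (np_iff.1 hZ).2 fun i hi j hj => by
    simp only [Set.mem_Ici] at *
    omega
  exact blk_zero h2 fun j hj => Or.inr hj

theorem np_mul_ep {X : EJ} (h : Np X) : X * EpL = 0 ∧ EpL * X = 0 := by
  constructor
  · refine blk_zero (blk_mul (r := Set.Ici 3) (np_iff.1 h).2 ep_blk fun i hi j hj => ?_)
      fun j hj => Or.inr hj
    simp only [Set.mem_Ici, Set.mem_singleton_iff] at *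
    omega
  · refine blk_zero (blk_mul (r := Set.Ici 3) ep_blk (np_iff.1 h).2 fun i hi j hj => ?_)
      fun j hj => Or.inr hj
    simp only [Set.mem_Ici, Set.mem_singleton_iff] at *
    omega

theorem trace_ef : LinearMap.trace Om J (EpL * EmL) = 6 := by
  have := fd_J
  have h1 : EpL * EmL = iu ∘ₗ upL := LinearMap.ext fun x => pr0_apply x
  have h2 : upL ∘ₗ iu = LinearMap.id := LinearMap.ext fun x => up_iu x
  rw [h1, LinearMap.trace_comp_comm', h2, LinearMap.trace_id]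
  simp

theorem blk_add {i j : ℤ} {X Y : EJ} (hX : X ∈ blk {i}) (hY : Y ∈ blk {j}) :
    X * Y ∈ blk {i + j} :=
  blk_mul hX hY fun a ha b hb => by
    rw [Set.mem_singleton_iff.1 ha, Set.mem_singleton_iff.1 hb]
    rfl

theorem blk_br {i j : ℤ} {X Y : EJ} (hX : X ∈ blk {i}) (hY : Y ∈ blk {j}) :
    X * Y - Y * X ∈ blk {i + j} :=
  (blk _).sub_mem (blk_add hX hY) (add_comm j i ▸ blk_add hY hX)

/-- Elements of degree minus one. -/
theorem br_neg {Y : EJ} (hY : Y ∈ blk {-1}) :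
    EmL * (EpL * Y - Y * EpL) - (EpL * Y - Y * EpL) * EmL = Y := by
  have h1 : EmL * Y = 0 := blk_zero (blk_add em_blk hY) fun j hj => Or.inl (by
    rw [Set.mem_singleton_iff.1 hj]; norm_num)
  have h2 : Y * EmL = 0 := blk_zero (blk_add hY em_blk) fun j hj => Or.inl (by
    rw [Set.mem_singleton_iff.1 hj]; norm_num)
  have h3 := blk_ad hY
  have h4 : EmL * (EpL * Y - Y * EpL) - (EpL * Y - Y * EpL) * EmL =
      -(hh * Y - Y * hh) + EpL * (EmL * Y) - EmL * Y * EpL - EpL * (Y * EmL) +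
        Y * EmL * EpL := by
    rw [hh]
    noncomm_ring
  rw [h4, h3, h1, h2]
  push_cast
  simp

end Vale.Agent.P011Z.Cl.Lie6x

end
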