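import Vale.Agent.P011Z.Cl.Lie6.A

/-!
Classification of the forms: block Lie6, part B. The blocks of the elements of the Lie algebra.
-/

open Matrix Module

noncomputable section

namespace Vale.Agent.P011Z.Cl.Lie6x

open Vale.Agent.P011.D4 Vale.Agent.P011.D4.Oct Vale.Agent.P011.E6 Vale.Agent.P011.E6.Alb

theorem polar (x y z : J) : tf (cross x y) z = cub (x + y + z) - cub (x + y) - cub (x + z) -
    cub (y + z) + cub x + cub y + cub z := by
  rw [cub_add (x + y) z, adj_add, cub_add x z, cub_add y z, tf_add_left, tf_add_left, tf_add_left]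
  ring

theorem cub_pr (x : J) : cub x = cub (pr 1 x) + up x ⬝ᵥ (om6 x *ᵥ um x) := by
  rw [cub_six, pr1_eq]
  rfl

theorem t6 (x y z : J) : tf (cross x y) z = tf (cross (pr 1 x) (pr 1 y)) (pr 1 z) +
    (up x ⬝ᵥ (om6 y *ᵥ um z) + up x ⬝ᵥ (om6 z *ᵥ um y) + up y ⬝ᵥ (om6 x *ᵥ um z) +
      up y ⬝ᵥ (om6 z *ᵥ um x) + up z ⬝ᵥ (om6 x *ᵥ um y) + up z ⬝ᵥ (om6 y *ᵥ um x)) := by
  rw [polar, polar (pr 1 x), ← map_add, ← map_add, ← map_add, ← map_add, cub_pr (x + y + z),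
    cub_pr (x + y), cub_pr (x + z), cub_pr (y + z), cub_pr x, cub_pr y, cub_pr z]
  simp only [up_add, om_add, um_add, add_mulVec, mulVec_add, add_dotProduct, dotProduct_add]
  ring

theorem pr1_iu (u : I6 → Om) : pr 1 (iu u) = 0 := pr1_zero (om_iu u)

theorem pr1_iv (u : I6 → Om) : pr 1 (iv u) = 0 := pr1_zero (om_iv u)

theorem t_uyv (u v : I6 → Om) (y : J) : tf (cross (iu u) y) (iv v) = u ⬝ᵥ (om6 y *ᵥ v) := by
  rw [t6]
  simp [pr1_iu, up_iu, om_iu, um_iu, up_iv, om_iv, um_iv]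

theorem alt_dot {w : Matrix I6 I6 Om} (hw : wᵀ = -w) (a b : I6 → Om) :
    a ⬝ᵥ (w *ᵥ b) = -(b ⬝ᵥ (w *ᵥ a)) := by
  rw [dotProduct_mulVec, ← mulVec_transpose, hw, neg_mulVec, neg_dotProduct, dotProduct_comm]

/-- The alternating matrix of two vectors. -/
def wedge (a b : I6 → Om) : Matrix I6 I6 Om := vecMulVec a b - vecMulVec b a

theorem wedge_alt (a b : I6 → Om) : (wedge a b)ᵀ = -wedge a b := by
  rw [wedge, transpose_sub, transpose_vecMulVec, transpose_vecMulVec, neg_sub]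

theorem wedge_mulVec (a b y : I6 → Om) : wedge a b *ᵥ y = (b ⬝ᵥ y) • a - (a ⬝ᵥ y) • b := by
  rw [wedge, sub_mulVec, vecMulVec_mulVec, vecMulVec_mulVec, op_smul_eq_smul, op_smul_eq_smul]

theorem dot_wedge (a b x y : I6 → Om) :
    x ⬝ᵥ (wedge a b *ᵥ y) = (a ⬝ᵥ x) * (b ⬝ᵥ y) - (b ⬝ᵥ x) * (a ⬝ᵥ y) := by
  rw [wedge_mulVec, dotProduct_sub, dotProduct_smul, dotProduct_smul, dotProduct_comm x,
    dotProduct_comm x, smul_eq_mul, smul_eq_mul]
  ring

/-- The standard basis. -/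
def bv (p : I6) : I6 → Om := Pi.single p 1

theorem bv_dot (p : I6) (x : I6 → Om) : bv p ⬝ᵥ x = x p := by
  rw [bv, single_dotProduct, one_mul]

theorem bv_apply (p q : I6) : bv p q = if q = p then 1 else 0 := Pi.single_apply _ _ _

theorem bv_mulVec (w : Matrix I6 I6 Om) (p q : I6) : bv p ⬝ᵥ (w *ᵥ bv q) = w p q := by
  rw [bv_dot, bv, mulVec_single_one]
  rfl

theorem bv_ext {W : Type} [AddCommGroup W] [Module Om W] {φ ψ : (I6 → Om) →ₗ[Om] W}
    (h : ∀ p, φ (bv p) = ψ (bv p)) : φ = ψ :=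
  (Pi.basisFun Om I6).ext fun p => by
    rw [Pi.basisFun_apply]
    exact h p

theorem third : ∀ p r : I6, ∃ q, q ≠ p ∧ q ≠ r := by decide

/-- The block lemma. -/
theorem block {φ ψ : (I6 → Om) →ₗ[Om] (I6 → Om)} (h : ∀ (u v : I6 → Om) (w : Matrix I6 I6 Om),
    wᵀ = -w → φ u ⬝ᵥ (w *ᵥ v) + u ⬝ᵥ (w *ᵥ ψ v) = 0) :
    ∃ c : Om, (∀ u, φ u = c • u) ∧ ∀ v, ψ v = -c • v := by
  have key : ∀ p q r s, φ (bv r) p * bv s q - φ (bv r) q * bv s p +
      (bv r p * ψ (bv s) q - bv r q * ψ (bv s) p) = 0 := fun p q r s => by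
    have h1 := h (bv r) (bv s) _ (wedge_alt (bv p) (bv q))
    simpa only [dot_wedge, bv_dot] using h1
  have k1 : ∀ p q, q ≠ p → φ (bv p) p + ψ (bv q) q = 0 := fun p q hq => by
    simpa [bv_apply, hq, hq.symm] using key p q p q
  refine ⟨φ (bv (0, 0)) (0, 0), fun u => ?_, fun u => ?_⟩
  · refine LinearMap.congr_fun (g := φ (bv (0, 0)) (0, 0) • LinearMap.id) (bv_ext fun r => ?_) u
    funext p
    change _ = _ * bv r p
    by_cases hp : p = r
    · subst hp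
      obtain ⟨q, h1, h2⟩ := third p (0, 0)
      rw [bv_apply, if_pos rfl]
      linear_combination k1 p q h1 - k1 _ q h2
    · obtain ⟨q, h1, h2⟩ := third p r
      rw [bv_apply, if_neg hp, mul_zero]
      simpa [bv_apply, hp, h1.symm, h2] using key p q r q
  · refine LinearMap.congr_fun (g := -φ (bv (0, 0)) (0, 0) • LinearMap.id) (bv_ext fun r => ?_) u
    funext p
    change _ = _ * bv r p
    by_cases hp : p = r
    · subst hp
      obtain ⟨q, h1, h2⟩ := third p (0, 0)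
      obtain ⟨s, h3, h4⟩ := third q (0, 0)
      rw [bv_apply, if_pos rfl]
      linear_combination k1 q p h1.symm - k1 q s h3 + k1 _ s h4 - 2 * k1 _ s h4 + k1 _ s h4 +
        (k1 _ s h4 - k1 _ s h4) + k1 _ s h4
    · obtain ⟨q, h1, h2⟩ := third p r
      rw [bv_apply, if_neg hp, mul_zero]
      simpa [bv_apply, hp, h1.symm, h2] using key q p q r

theorem im_six {w : Matrix I6 I6 Om} (hw : wᵀ = -w) :
    up (d6 0 w 0) = 0 ∧ om6 (d6 0 w 0) = w ∧ um (d6 0 w 0) = 0 := six_d6 _ _ hw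

theorem eq_iu {x : J} (h1 : om6 x = 0) (h2 : um x = 0) : x = iu (up x) :=
  six_ext (up_iu _).symm (h1.trans (om_iu _).symm) (h2.trans (um_iu _).symm)

theorem eq_iv {x : J} (h1 : om6 x = 0) (h2 : up x = 0) : x = iv (um x) :=
  six_ext (h2.trans (up_iv _).symm) (h1.trans (om_iv _).symm) (um_iv _).symm

theorem t_vyu (u v : I6 → Om) (y : J) : tf (cross (iv v) y) (iu u) = u ⬝ᵥ (om6 y *ᵥ v) := by
  rw [tf_cross, tf_comm, cross_comm, t_uyv]

theorem eq_ep {X : EJ} (hX : Lie X) (h1 : ∀ x, um x = 0 → X x = 0)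
    (h2 : ∀ x, om6 (X x) = 0 ∧ um (X x) = 0) : ∃ a : Om, X = a • EpL := by
  have e1 : ∀ x, X x = iu (up (X x)) := fun x => eq_iu (h2 x).1 (h2 x).2
  obtain ⟨c, hc, -⟩ := block (φ := upL ∘ₗ X ∘ₗ iv) (ψ := -(upL ∘ₗ X ∘ₗ iv)) fun u v w hw => by
    have h3 := hX.tri (iv u) (d6 0 w 0) (iv v)
    rw [h1 _ (im_six hw).2.2, cross_zero_right, tf_zero_left, add_zero, e1 (iv u), e1 (iv v), t_uyv,
      t_vyu, (im_six hw).2.1, alt_dot hw _ u] at h3
    rw [LinearMap.neg_apply, mulVec_neg, dotProduct_neg]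
    exact h3
  refine ⟨c, LinearMap.ext fun x => ?_⟩
  have h3 : X (x - iv (um x)) = 0 := h1 _ (by rw [um_sub, um_iv, sub_self])
  rw [map_sub, sub_eq_zero] at h3
  rw [h3, e1, LinearMap.smul_apply, ep_apply, ← map_smul, ← hc]
  rfl

theorem eq_em {X : EJ} (hX : Lie X) (h1 : ∀ x, up x = 0 → X x = 0)
    (h2 : ∀ x, om6 (X x) = 0 ∧ up (X x) = 0) : ∃ a : Om, X = a • EmL := by
  have e1 : ∀ x, X x = iv (um (X x)) := fun x => eq_iv (h2 x).1 (h2 x).2
  obtain ⟨c, -, hc⟩ := block (φ := -(umL ∘ₗ X ∘ₗ iu)) (ψ := umL ∘ₗ X ∘ₗ iu) fun u v w hw => by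
    have h3 := hX.tri (iu u) (d6 0 w 0) (iu v)
    rw [h1 _ (im_six hw).1, cross_zero_right, tf_zero_left, add_zero, e1 (iu u), e1 (iu v), t_uyv,
      t_vyu, (im_six hw).2.1, alt_dot hw v] at h3
    rw [LinearMap.neg_apply, neg_dotProduct]
    exact h3
  refine ⟨-c, LinearMap.ext fun x => ?_⟩
  have h3 : X (x - iu (up x)) = 0 := h1 _ (by rw [up_sub, up_iu, sub_self])
  rw [map_sub, sub_eq_zero] at h3
  rw [h3, e1, LinearMap.smul_apply, em_apply, ← map_smul, ← hc]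
  rfl

theorem col {s : Set ℤ} {Z : EJ} (hZ : Z ∈ blk s) {b : Fin 3} (h : ∀ a, wt a - wt b ∉ s) (x : J) :
    Z (pr b x) = 0 := LinearMap.congr_fun (mul_pr hZ h) x

theorem row {s : Set ℤ} {Z : EJ} (hZ : Z ∈ blk s) {a : Fin 3} (h : ∀ b, wt a - wt b ∉ s) (x : J) :
    pr a (Z x) = 0 := LinearMap.congr_fun (pr_mul_blk hZ h) x

theorem ent {s : Set ℤ} {Z : EJ} (hZ : Z ∈ blk s) {a b : Fin 3} (h : wt a - wt b ∉ s) (x : J) :
    pr a (Z (pr b x)) = 0 := LinearMap.congr_fun (hZ a b h) x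

theorem pr0_iu (u : I6 → Om) : pr 0 (iu u) = iu u := by rw [pr0_apply, up_iu]

theorem pr2_iv (u : I6 → Om) : pr 2 (iv u) = iv u := by rw [pr2_apply, um_iv]

theorem deg2 {X : EJ} (hX : Lie X) (h : X ∈ blk {2}) : ∃ a : Om, X = a • EpL := by
  refine eq_ep hX (fun x hx => ?_) fun x => ⟨om_of_pr (row h (by decide) x),
    um_of_pr (row h (by decide) x)⟩
  rw [← sum_pr_apply x, pr2_apply, hx, map_zero, add_zero, map_add, col h (by decide),
    col h (by decide), add_zero]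

theorem degm2 {X : EJ} (hX : Lie X) (h : X ∈ blk {-2}) : ∃ a : Om, X = a • EmL := by
  refine eq_em hX (fun x hx => ?_) fun x => ⟨om_of_pr (row h (by decide) x),
    up_of_pr (row h (by decide) x)⟩
  rw [← sum_pr_apply x, pr0_apply, hx, map_zero, zero_add, map_add, col h (by decide),
    col h (by decide), add_zero]

theorem mat_zero {w : Matrix I6 I6 Om} (h : ∀ u v, u ⬝ᵥ (w *ᵥ v) = 0) : w = 0 := by
  ext p q
  exact (bv_mulVec w p q).symm.trans (h _ _)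

theorem deg0 {Z : EJ} (hZ : Lie Z) (h : Z ∈ blk {0}) (h1 : ∀ u, Z (iu u) = 0)
    (h2 : ∀ v, Z (iv v) = 0) : Z = 0 := by
  refine LinearMap.ext fun x => ?_
  have h3 : om6 (Z (pr 1 x)) = 0 := mat_zero fun u v => by
    have h4 := hZ.tri (iu u) (pr 1 x) (iv v)
    rwa [h1, h2, cross_zero_left, tf_zero_left, tf_zero_right, zero_add, add_zero, t_uyv] at h4
  rw [← sum_pr_apply x, pr0_apply, pr2_apply, map_add, map_add, h1, h2, zero_add, add_zero,
    ← sum_pr_apply (Z (pr 1 x)), ent h (by decide), ent h (a := 2) (by decide), pr1_zero h3,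
    add_zero, add_zero]
  rfl

theorem jj (x : I6 → Om) : j6 *ᵥ (j6 *ᵥ x) = -x := by
  rw [mulVec_mulVec, j6_props.2.1, neg_mulVec, one_mulVec]

theorem dot_j_zero {a : I6 → Om} (h : ∀ v, a ⬝ᵥ (j6 *ᵥ v) = 0) : a = 0 := by
  funext p
  have h1 := h (-(j6 *ᵥ bv p))
  rwa [mulVec_neg, jj, neg_neg, dotProduct_comm, bv_dot] at h1

theorem deg1 {X : EJ} (hX : Lie X) (h : X ∈ blk {1}) (h2 : ∀ v, X (iv v) = 0) : X = 0 := by
  have e1 : ∀ x, X (pr 1 x) = iu (up (X (pr 1 x))) := fun x =>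
    eq_iu (om_of_pr (ent h (by decide) x)) (um_of_pr (ent h (by decide) x))
  have key : ∀ x y v, up (X (pr 1 x)) ⬝ᵥ (om6 y *ᵥ v) + up (X (pr 1 y)) ⬝ᵥ (om6 x *ᵥ v) = 0 := by
    intro x y v
    have h4 := hX.tri (pr 1 x) (pr 1 y) (iv v)
    rwa [h2, tf_zero_right, add_zero, e1 x, e1 y, cross_comm (pr 1 x), t_uyv, t_uyv, om_pr1,
      om_pr1] at h4
  have hj := (im_six j6_props.1).2.1
  have k1 : up (X (pr 1 (d6 0 j6 0))) = 0 := dot_j_zero fun v => by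
    have h4 := key (d6 0 j6 0) (d6 0 j6 0) v
    rw [hj] at h4
    linear_combination (2⁻¹ : Om) * h4
  refine LinearMap.ext fun x => ?_
  have k2 : up (X (pr 1 x)) = 0 := dot_j_zero fun v => by
    have h4 := key x (d6 0 j6 0) v
    rwa [hj, k1, zero_dotProduct, add_zero] at h4
  rw [← sum_pr_apply x, map_add, map_add, col h (by decide), e1, k2, map_zero, pr2_apply, h2,
    add_zero, add_zero]
  rfl

end Vale.Agent.P011Z.Cl.Lie6x

end
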