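import Vale.Agent.P011Z.Cl.Lie6.B

/-!
Classification of the forms: block Lie6, part C. The root elements of degree one.
-/

open Matrix Module

noncomputable section

namespace Vale.Agent.P011Z.Cl.Lie6x

open Vale.Agent.P011.D4 Vale.Agent.P011.D4.Oct Vale.Agent.P011.E6 Vale.Agent.P011.E6.Alb

theorem vo_apply (a b x : J) :
    voL a b x = tf a b • x + tf x b • a - cross (cross a x) b := rfl

theorem br_vo {Z W : EJ} (hZ : Lie Z) (h : ∀ x y, tf (W x) y = tf x (Z y)) (a b : J) :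
    Z * voL a b - voL a b * Z = voL (Z a) b - voL a (W b) := by
  have hW := hZ.tr h
  have h1 : ∀ x y, W (cross x y) = -(cross (Z x) y + cross x (Z y)) := fun x y =>
    eq_of_tf fun z => by
      rw [h, tf_neg_left, tf_add_left]
      linear_combination hZ.tri x y z
  have h2 : ∀ x y, Z (cross x y) = -(cross (W x) y + cross x (W y)) := fun x y =>
    eq_of_tf fun z => by
      rw [tf_comm, ← h, tf_comm, tf_neg_left, tf_add_left]
      linear_combination hW.tri x y z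
  refine LinearMap.ext fun x => ?_
  simp only [LinearMap.sub_apply, Module.End.mul_apply, vo_apply, map_sub, map_add, map_smul, h2,
    h1, cross_neg_left, cross_add_left, tf_comm a (W b), tf_comm x (W b), h, tf_comm b]
  module

theorem tf_hh (x y : J) : tf ((-hh) x) y = tf x (hh y) := by
  rw [LinearMap.neg_apply, tf_neg_left, hh_eq, LinearMap.sub_apply, LinearMap.sub_apply, pr0_apply,
    pr0_apply, pr2_apply, pr2_apply, tf_six, tf_six x]
  simp [up_sub, um_sub, om_sub, up_iu, om_iu, um_iu, up_iv, om_iv, um_iv, mulVec_neg, add_comm]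

theorem tf_iv (v : I6 → Om) (z : J) : tf (iv v) z = v ⬝ᵥ (j6 *ᵥ up z) := by
  rw [tf_six]
  simp [up_iv, om_iv, um_iv]

theorem tf_mid {x : J} (h1 : up x = 0) (h2 : um x = 0) {y : J} (h : om6 y = 0) : tf x y = 0 := by
  rw [tf_six]
  simp [h1, h2, h]

theorem adj_iu (u : I6 → Om) : adj (iu u) = 0 := eq_zero_of_tf fun z => by
  have h := t6 (iu u) (iu u) z
  rw [Alb.cross_self, tf_smul_left] at h
  simpa [pr1_iu, up_iu, om_iu, um_iu] using h

theorem adj_iv (u : I6 → Om) : adj (iv u) = 0 := eq_zero_of_tf fun z => by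
  have h := t6 (iv u) (iv u) z
  rw [Alb.cross_self, tf_smul_left] at h
  simpa [pr1_iv, up_iv, om_iv, um_iv] using h

theorem cross_vu (w b : I6 → Om) :
    cross (iv w) (iu b) = d6 0 (wedge (j6 *ᵥ b) (j6 *ᵥ w)) 0 := eq_of_tf fun z => by
  have h := im_six (wedge_alt (j6 *ᵥ b) (j6 *ᵥ w))
  have k : ∀ a c : I6 → Om, (j6 * vecMulVec (j6 *ᵥ a) (j6 *ᵥ c) * j6 * om6 z).trace =
      a ⬝ᵥ (om6 z *ᵥ c) := fun a c => by
    rw [mul_vecMulVec, jj, vecMulVec_mul, vecMulVec_mul, trace_vecMulVec, ← mulVec_transpose j6,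
      j6_props.1, neg_mulVec, jj, neg_neg, ← mulVec_transpose, om6_alt, neg_mulVec, neg_dotProduct,
      dotProduct_neg, neg_neg]
  rw [tf_cross_comm, t_vyu, tf_six, h.1, h.2.1, h.2.2, wedge, mul_sub, sub_mul, sub_mul, trace_sub,
    k, k, alt_dot (om6_alt z) w]
  simp only [zero_dotProduct]
  ring

theorem cross_mv {a : J} (h1 : up a = 0) (h2 : um a = 0) (v : I6 → Om) :
    cross a (iv v) = iv (j6 *ᵥ (om6 a *ᵥ v)) := eq_of_tf fun z => by
  rw [t6, tf_iv, alt_dot j6_props.1, jj]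
  simp [pr1_iv, up_iv, om_iv, um_iv, h1, h2]

theorem cross_sing {a : J} (h : adj a = 0) (x z : J) :
    cross (cross a x) (cross a z) = tf a (cross x z) • a := by
  have k : ∀ y, adj (cross a y) = tf a (adj y) • a := fun y => by
    simpa [h] using adj_cross a y
  have h1 := k (x + z)
  rw [cross_add_right, adj_add, adj_add, k, k, tf_add_right, tf_add_right, add_smul,
    add_smul] at h1
  exact add_left_cancel (add_right_cancel h1)

theorem vo_sq {a b : J} (ha : adj a = 0) (hb : adj b = 0) (h : tf a b = 0) :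
    voL a b * voL a b = 0 := by
  refine LinearMap.ext fun x => ?_
  have h1 : cross a (voL a b x) = 0 := eq_zero_of_tf fun z => by
    rw [vo_apply, h, zero_smul, zero_add, cross_sub_right, cross_smul_right, Alb.cross_self, ha,
      smul_zero, smul_zero, zero_sub, tf_neg_left, cross_comm a, tf_cross, cross_comm _ b, tf_cross,
      cross_sing ha, tf_smul_right, tf_comm b, h, mul_zero, neg_zero]
  have h2 : tf (voL a b x) b = 0 := by
    rw [vo_apply, h, zero_smul, zero_add, tf_sub_left, tf_smul_left, h, tf_cross, Alb.cross_self,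
      hb, smul_zero, tf_zero_right, mul_zero, sub_zero]
  rw [Module.End.mul_apply, vo_apply, h, h1, h2]
  simp

/-- The inverse of the symplectic matrix. -/
def jl : (I6 → Om) →ₗ[Om] (I6 → Om) := -mulVecLin j6

theorem j_jl (x : I6 → Om) : j6 *ᵥ jl x = x := by
  change j6 *ᵥ (-(j6 *ᵥ x)) = x
  rw [mulVec_neg, jj, neg_neg]

/-- The root elements of degree one. -/
def gg (α γ δ : I6 → Om) : EJ := voL (cross (iv (jl δ)) (iu (jl γ))) (iu (jl α))

theorem mid_eq (γ δ : I6 → Om) : up (cross (iv (jl δ)) (iu (jl γ))) = 0 ∧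
    om6 (cross (iv (jl δ)) (iu (jl γ))) = wedge γ δ ∧ um (cross (iv (jl δ)) (iu (jl γ))) = 0 := by
  rw [cross_vu, j_jl, j_jl]
  exact im_six (wedge_alt _ _)

theorem gg_tf (α γ δ : I6 → Om) : tf (cross (iv (jl δ)) (iu (jl γ))) (iu (jl α)) = 0 :=
  tf_mid (mid_eq γ δ).1 (mid_eq γ δ).2.2 (om_iu _)

theorem gg_lie (α γ δ : I6 → Om) : Lie (gg α γ δ) := lie_vo (gg_tf α γ δ)

theorem gg_sq (α γ δ : I6 → Om) : gg α γ δ * gg α γ δ = 0 :=
  vo_sq (by simpa [adj_iu, adj_iv] using adj_cross (iv (jl δ)) (iu (jl γ))) (adj_iu _)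
    (gg_tf α γ δ)

theorem gg_blk (α γ δ : I6 → Om) : gg α γ δ ∈ blk {1} := by
  refine blk_of_ad ?_
  have h1 : hh (cross (iv (jl δ)) (iu (jl γ))) = 0 := by
    rw [hh_eq, LinearMap.sub_apply, pr0_apply, pr2_apply, (mid_eq γ δ).1, (mid_eq γ δ).2.2,
      map_zero, map_zero, sub_zero]
  have h2 : (-hh) (iu (jl α)) = -iu (jl α) := by
    rw [LinearMap.neg_apply, hh_eq, LinearMap.sub_apply, pr0_iu, pr2_apply, um_iu, map_zero,
      sub_zero]
  rw [gg, br_vo lie_hh tf_hh, h1, h2]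
  refine LinearMap.ext fun x => ?_
  simp only [LinearMap.sub_apply, LinearMap.smul_apply, vo_apply, tf_neg_right, cross_neg_right,
    tf_zero_left, cross_zero_left]
  push_cast
  module

theorem gg_om (α γ δ v : I6 → Om) :
    om6 (gg α γ δ (iv v)) = (v ⬝ᵥ α) • wedge γ δ + wedge α (wedge γ δ *ᵥ v) := by
  rw [gg, vo_apply, gg_tf, zero_smul, zero_add, tf_iv, up_iu, j_jl,
    cross_mv (mid_eq γ δ).1 (mid_eq γ δ).2.2, cross_vu (j6 *ᵥ _), om_sub, om_smul, (mid_eq γ δ).2.1,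
    (im_six (wedge_alt _ _)).2.1, j_jl, jj]
  ext p q
  simp only [wedge, Matrix.sub_apply, Matrix.add_apply, vecMulVec_apply, Pi.neg_apply]
  ring

theorem gg_dot (α γ δ v u w : I6 → Om) : u ⬝ᵥ (om6 (gg α γ δ (iv v)) *ᵥ w) =
    (α ⬝ᵥ v) * (γ ⬝ᵥ u) * (δ ⬝ᵥ w) - (α ⬝ᵥ v) * (γ ⬝ᵥ w) * (δ ⬝ᵥ u) +
      (α ⬝ᵥ u) * (γ ⬝ᵥ w) * (δ ⬝ᵥ v) - (α ⬝ᵥ u) * (γ ⬝ᵥ v) * (δ ⬝ᵥ w) +
      (α ⬝ᵥ w) * (γ ⬝ᵥ v) * (δ ⬝ᵥ u) - (α ⬝ᵥ w) * (γ ⬝ᵥ u) * (δ ⬝ᵥ v) := by
  rw [gg_om, add_mulVec, smul_mulVec, dotProduct_add, dotProduct_smul, dot_wedge, dot_wedge,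
    wedge_mulVec]
  simp only [sub_dotProduct, smul_dotProduct, smul_eq_mul, dotProduct_comm v]
  ring

theorem gg_br (α γ δ : I6 → Om) : gg α γ δ * (gg α γ δ * EmL - EmL * gg α γ δ) =
    (gg α γ δ * EmL - EmL * gg α γ δ) * gg α γ δ := by
  have hb := gg_blk α γ δ
  have hl := gg_lie α γ δ
  have hs := gg_sq α γ δ
  generalize gg α γ δ = X at *
  have h1 : X * (X * EmL - EmL * X) - (X * EmL - EmL * X) * X = -(2 : Om) • (X * EmL * X) := by
    rw [mul_sub, sub_mul, ← mul_assoc, hs, mul_assoc EmL, hs, ← mul_assoc]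
    simp only [zero_mul, mul_zero]
    module
  have h2 := blk_br hb (blk_br hb em_blk)
  rw [← sub_eq_zero]
  refine deg0 (hl.br (hl.br lie_em)) (by simpa using h2) (fun u => ?_) fun v => ?_
  · rw [h1, LinearMap.smul_apply, Module.End.mul_apply, ← pr0_iu, col hb (by decide), map_zero,
      smul_zero]
  · rw [h1, LinearMap.smul_apply, Module.End.mul_apply, Module.End.mul_apply, em_apply, ← pr2_iv v,
      up_of_pr (ent hb (b := 2) (by decide) _), map_zero, map_zero, smul_zero]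

theorem exists_voL : ∃ B : J →ₗ[Om] J →ₗ[Om] EJ, ∀ a b, B a b = voL a b := by
  refine ⟨LinearMap.mk₂ Om voL (fun a c b => ?_) (fun t a b => ?_) (fun a b c => ?_)
    fun t a b => ?_, fun _ _ => rfl⟩ <;> refine LinearMap.ext fun x => ?_ <;>
  simp only [LinearMap.add_apply, LinearMap.smul_apply, vo_apply, tf_add_left, tf_add_right,
    cross_add_left, cross_add_right, tf_smul_left, tf_smul_right, cross_smul_left,
    cross_smul_right] <;> module

theorem gg_pol : PolM fun u : Fin 3 → I6 → Om => gg (u 0) (u 1) (u 2) := by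
  have := fd_J
  obtain ⟨B, hB⟩ := exists_voL
  have h : ∀ (l : (I6 → Om) →ₗ[Om] J) (i : Fin 3), PolM fun u : Fin 3 → I6 → Om => l (jl (u i)) :=
    fun l i => (PolM.lin (l ∘ₗ jl)).comp
      (PolM.lin (LinearMap.proj i : (Fin 3 → I6 → Om) →ₗ[Om] I6 → Om))
  have h1 := PolM.bil B (PolM.cross (h iv 2) (h iu 1)) (h iu 0)
  simp only [hB] at h1
  simpa only [gg] using h1

/-- The middle projection. -/
def omL : J →ₗ[Om] Matrix I6 I6 Om := six_lin.2.2.mk' _

theorem sum_bv (t : I6 → I6 → I6 → Om) (a b c : I6) :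
    ∑ p, ∑ q, ∑ r, t p q r * (bv a p * bv b q * bv c r) = t a b c := by
  simp [bv_apply]

theorem gg_span {X : EJ} (hX : Lie X) (h : X ∈ blk {1}) :
    X ∈ Submodule.span Om (Set.range fun u : Fin 3 → I6 → Om => gg (u 0) (u 1) (u 2)) := by
  obtain ⟨t, ht⟩ : ∃ t : I6 → I6 → I6 → Om, ∀ a b c,
      t a b c = bv b ⬝ᵥ (om6 (X (iv (bv a))) *ᵥ bv c) := ⟨_, fun _ _ _ => rfl⟩
  have s1 : ∀ a b c, t a c b = -t a b c := fun a b c => by
    rw [ht, ht, alt_dot (om6_alt _)]
  have s2 : ∀ a b c, t c b a = -t a b c := fun a b c => by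
    have h1 := hX.tri (iv (bv a)) (iu (bv b)) (iv (bv c))
    rw [← pr0_iu, col h (by decide), pr0_iu, cross_zero_right, tf_zero_left, add_zero, cross_comm,
      t_uyv, tf_cross_comm, t_vyu, ← ht, ← ht] at h1
    linear_combination h1
  obtain ⟨Y, hY⟩ : ∃ Y : EJ, Y = ∑ p, ∑ q, ∑ r, t p q r • gg (bv p) (bv q) (bv r) := ⟨_, rfl⟩
  have m : ∀ S : Submodule Om EJ, (∀ α γ δ, gg α γ δ ∈ S) → (6⁻¹ : Om) • Y ∈ S := fun S hS => by
    rw [hY]
    exact S.smul_mem _ (S.sum_mem fun p _ => S.sum_mem fun q _ => S.sum_mem fun r _ =>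
      S.smul_mem _ (hS _ _ _))
  have hb := (blk _).sub_mem h (m _ gg_blk)
  have h0 : X - (6⁻¹ : Om) • Y = 0 := by
    refine deg1 (LL.sub_mem hX (m LL gg_lie)) hb fun v => ?_
    refine LinearMap.congr_fun (f := (X - (6⁻¹ : Om) • Y) ∘ₗ iv) (g := 0) (bv_ext fun a => ?_) v
    change (X - (6⁻¹ : Om) • Y) (iv (bv a)) = 0
    have h1 : om6 (Y (iv (bv a))) = (6 : Om) • om6 (X (iv (bv a))) := by
      ext b c
      have h2 : om6 (Y (iv (bv a))) b c =
          ∑ p, ∑ q, ∑ r, t p q r * om6 (gg (bv p) (bv q) (bv r) (iv (bv a))) b c := by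
        change omL (Y _) b c = _
        simp only [hY, LinearMap.sum_apply, LinearMap.smul_apply, map_sum, map_smul,
          Matrix.sum_apply, Matrix.smul_apply, smul_eq_mul]
        rfl
      rw [h2, Matrix.smul_apply, ← bv_mulVec (om6 (X _)), ← ht]
      simp only [← bv_mulVec (om6 _), gg_dot, bv_dot, mul_add, mul_sub, Finset.sum_add_distrib,
        Finset.sum_sub_distrib, sum_bv, smul_eq_mul]
      linear_combination -3 * s1 a b c - 2 * s2 a b c + 2 * s2 a c b - s1 b c a + s1 c b a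
    refine six_ext ?_ ?_ ?_
    · rw [← pr2_iv, up_of_pr (ent hb (by decide) _), up_zero]
    · rw [LinearMap.sub_apply, LinearMap.smul_apply, om_sub, om_smul, h1, smul_smul,
        inv_mul_cancel₀ (by norm_num), one_smul, sub_self, om_zero]
    · rw [um_of_pr (row hb (by decide) _), um_zero]
  rw [sub_eq_zero.1 h0]
  exact m _ fun α γ δ => Submodule.subset_span ⟨![α, γ, δ], rfl⟩

end Vale.Agent.P011Z.Cl.Lie6x

end
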