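import Vale.Agent.P011Z.Cl.Lie6.C

/-!
Classification of the forms: block Lie6, part D. The trace form and the centralizer.
-/

open Matrix Module

noncomputable section

namespace Vale.Agent.P011Z.Cl.Lie6x

open Vale.Agent.P011.D4 Vale.Agent.P011.D4.Oct Vale.Agent.P011.E6 Vale.Agent.P011.E6.Alb

/-- The twenty seven coordinates. -/
def co : J →ₗ[Om] (Fin 3 × Fin 3 × Fin 3 → Om) where
  toFun x c := ![![dg x c.1, zp (sl x c.1), zm (sl x c.1)], za (sl x c.1), zb (sl x c.1)] c.2.1 c.2.2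
  map_add' x y := by
    funext ⟨i, j, k⟩
    fin_cases j <;> fin_cases k <;>
    simp [ZDx.dg_add, ZDx.sl_add, ZDx.zp_add, ZDx.zm_add, ZDx.za_add, ZDx.zb_add]
  map_smul' t x := by
    funext ⟨i, j, k⟩
    fin_cases j <;> fin_cases k <;>
    simp [ZDx.dg_smul, ZDx.sl_smul, ZDx.zp_smul, ZDx.zm_smul, ZDx.za_smul, ZDx.zb_smul]

theorem tf_co (γ : Gq) (x y : J) :
    tf x (al γ (fun z => ZDx.be (oa γ z)) y) = ∑ c, co x c * γ (co y c) := by
  rw [tf_eq, Fintype.sum_prod_type]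
  refine Finset.sum_congr rfl fun i _ => ?_
  simp [al, dg_jm, sl_jm, bil_z, ZDx.be, ZDx.zp_zorn, ZDx.zm_zorn, ZDx.za_zorn, ZDx.zb_zorn,
    (z_oa γ _).1, (z_oa γ _).2.1, (z_oa γ _).2.2.1, (z_oa γ _).2.2.2, co, Fintype.sum_prod_type,
    Fin.sum_univ_three, dotProduct]
  ring

theorem kill' {Z : EJ} (hZ : Lie Z) (h0 : Z ≠ 0) :
    ∃ W, Lie W ∧ LinearMap.trace Om J (Z * W) ≠ 0 := by
  have := fd_J
  obtain ⟨ι⟩ : Nonempty (Om →+* ℂ) := ⟨(IsAlgClosed.lift : Om →ₐ[ℚ] ℂ)⟩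
  obtain ⟨γ, hγ⟩ := exists_cj ι
  have hs : Semi γ fun z => ZDx.be (oa γ z) := by
    have h := ZDx.be_semi.comp (oa_semi γ)
    rwa [one_mul] at h
  have hf := (al_props hs fun x y => by rw [oa_mul, ZDx.be_mul]).1
  have ht := tf_co γ
  generalize al γ (fun z => ZDx.be (oa γ z)) = f at hf ht
  obtain ⟨Y, hY⟩ := Liex.exists_conj hf.toSemi Z
  obtain ⟨W, hW, -⟩ := exists_tr Y
  refine ⟨W, (hZ.semi hf hY).tr hW, fun h => h0 ?_⟩
  have hi : Function.Injective co := by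
    rw [injective_iff_map_eq_zero]
    refine fun x hx => eq_zero_of_tf fun y => ?_
    obtain ⟨z, rfl⟩ := hf.bij.2 y
    simp [ht, hx]
  let e := co.linearEquivOfInjective hi (by rw [finrank_J]; simp)
  let b := Basis.ofEquivFun e
  have hb : ∀ x c, b.repr x c = co x c := fun _ _ => rfl
  have h1 : ∀ x c, co x c = tf x (f (b c)) := fun x c => by
    simp only [ht, ← hb, Basis.repr_self, Finsupp.single_apply, apply_ite γ, map_one, map_zero,
      mul_ite, mul_one, mul_zero, Finset.sum_ite_eq, Finset.mem_univ, if_true]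
  have h2 : LinearMap.trace Om J (Z * W) = ∑ c, ∑ d, co (Z (b c)) d * γ (co (Z (b c)) d) := by
    rw [LinearMap.trace_mul_comm, LinearMap.trace_eq_matrix_trace Om b, trace]
    refine Finset.sum_congr rfl fun c _ => ?_
    rw [diag_apply, LinearMap.toMatrix_apply, hb, h1, Module.End.mul_apply, hW, hY, ht]
  have h3 : ∀ z, 0 ≤ (ι (z * γ z)).re := fun z => by
    by_cases hz : z = 0
    · simp [hz]
    · exact (hγ.norm_pos hz).le
  have h4 := congrArg (fun z => (ι z).re) (h2.symm.trans h)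
  simp only [map_sum, Complex.re_sum, map_zero, Complex.zero_re] at h4
  refine b.ext fun c => hi (funext fun d => ?_)
  by_contra h5
  rw [LinearMap.zero_apply, map_zero] at h5
  have h6 := (Finset.sum_eq_zero_iff_of_nonneg fun c _ => Finset.sum_nonneg fun d _ => h3 _).1 h4 c
    (Finset.mem_univ _)
  exact (hγ.norm_pos h5).ne' ((Finset.sum_eq_zero_iff_of_nonneg fun d _ => h3 _).1 h6 d
    (Finset.mem_univ _))

theorem fourth : ∀ p s : I6, ∃ q r, q ≠ r ∧ q ≠ p ∧ q ≠ s ∧ r ≠ p ∧ r ≠ s := by decide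

theorem cen0 {Z : EJ} (hZ : Lie Z) (hb : Z ∈ blk {0}) (h : ∀ X, Np X → X * Z = Z * X) : Z = 0 := by
  obtain ⟨A, hA⟩ : ∃ A : (I6 → Om) →ₗ[Om] (I6 → Om), ∀ v, A v = um (Z (iv v)) :=
    ⟨umL ∘ₗ Z ∘ₗ iv, fun _ => rfl⟩
  have h1 : ∀ v, Z (iv v) = iv (A v) := fun v => by
    rw [hA, ← pr2_iv v]
    exact eq_iv (om_of_pr (ent hb (by decide) _)) (up_of_pr (ent hb (by decide) _))
  have h2 : ∀ v, Z (iu v) = iu (A v) := fun v => by
    have h3 := LinearMap.congr_fun (h _ np_ep) (iv v)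
    rw [Module.End.mul_apply, Module.End.mul_apply, ep_apply, ep_apply, um_iv, ← hA] at h3
    exact h3.symm
  have key : ∀ α γ δ v u w, A u ⬝ᵥ (om6 (gg α γ δ (iv v)) *ᵥ w) +
      u ⬝ᵥ (om6 (gg α γ δ (iv (A v))) *ᵥ w) + u ⬝ᵥ (om6 (gg α γ δ (iv v)) *ᵥ A w) = 0 := by
    intro α γ δ v u w
    have h3 := LinearMap.congr_fun (h _ (np_of_blk le_rfl (gg_lie α γ δ) (gg_blk α γ δ))) (iv v)
    have h4 := hZ.tri (iu u) (gg α γ δ (iv v)) (iv w)
    rw [Module.End.mul_apply, Module.End.mul_apply, h1] at h3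
    rwa [h1, h2, ← h3, t_uyv, t_uyv, t_uyv] at h4
  have k1 : ∀ p q r, p ≠ q → p ≠ r → q ≠ r → A (bv p) p + A (bv q) q + A (bv r) r = 0 := by
    intro p q r a b c
    have h3 := key (bv p) (bv q) (bv r) (bv p) (bv q) (bv r)
    simp only [gg_dot, bv_dot, bv_apply, a, b, c, a.symm, b.symm, c.symm, if_true, if_false] at h3
    linear_combination h3
  have k2 : A = 0 := bv_ext fun s => funext fun p => by
    obtain ⟨q, r, a, b, c, d, e⟩ := fourth p s
    change _ = (0 : Om)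
    by_cases hp : p = s
    · subst hp
      obtain ⟨x, y, a1, b1, c1, d1, e1⟩ := fourth q r
      obtain ⟨z, f1, f2⟩ : ∃ z, z ≠ p ∧ (z ≠ q ∧ z ≠ r) := by
        by_cases hx : x = p
        · exact ⟨y, hx ▸ a1.symm, d1, e1⟩
        · exact ⟨x, hx, b1, c1⟩
      linear_combination (3⁻¹ : Om) * (k1 p q r b.symm d.symm a + k1 p q z b.symm f1.symm f2.1.symm +
        k1 p r z d.symm f1.symm f2.2.symm - 2 * k1 q r z a f2.1.symm f2.2.symm)
    · have h3 := key (bv p) (bv q) (bv r) (bv s) (bv q) (bv r)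
      simp only [gg_dot, bv_dot, bv_apply, a, c, e, hp, a.symm, b.symm, d.symm, if_true,
        if_false] at h3
      linear_combination h3
  exact deg0 hZ hb (fun u => by rw [h2, k2, LinearMap.zero_apply, map_zero]) fun v => by
    rw [h1, k2, LinearMap.zero_apply, map_zero]

theorem cen1 {Z : EJ} (hZ : Lie Z) (hb : Z ∈ blk {1}) (h : ∀ X, Np X → X * Z = Z * X) : Z = 0 := by
  by_contra h0
  obtain ⟨W, hW, ht⟩ := kill' hZ h0
  have h1 : LinearMap.trace Om J (Z * (W - cmp (-1) W)) = 0 :=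
    blk_trace (blk_mul (r := {0}ᶜ) hb (sub_cmp (-1) W) fun i hi j hj => by
      simp only [Set.mem_compl_iff, Set.mem_singleton_iff] at *
      omega) (by simp)
  have h2 := h _ (np_of_blk (by norm_num) (lie_ep.br (lie_cmp hW).2.2.2.1)
    (blk_br ep_blk (cmp_mem (-1) W)))
  have h3 := br_neg (cmp_mem (-1) W)
  generalize EpL * cmp (-1) W - cmp (-1) W * EpL = V at h2 h3
  rw [mul_sub, map_sub, ← h3, mul_sub, map_sub, ← mul_assoc, LinearMap.trace_mul_comm _ _ V,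
    ← mul_assoc, h2, ← mul_assoc, sub_self, sub_zero] at h1
  exact ht h1

theorem cen {Z : EJ} (hZ : Lie Z) (h : ∀ X, Np X → X * Z = Z * X) : ∃ a : Om, Z = a • EpL := by
  let L : Submodule Om EJ :=
    { carrier := {W | Lie W ∧ ∀ X, Np X → X * W = W * X}
      add_mem' := fun {A B} hA hB => ⟨hA.1.add hB.1, fun X hX => by
        rw [mul_add, add_mul, hA.2 X hX, hB.2 X hX]⟩
      zero_mem' := ⟨LL.zero_mem, fun X _ => by rw [mul_zero, zero_mul]⟩
      smul_mem' := fun t A hA => ⟨hA.1.smul t, fun X hX => by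
        rw [mul_smul_comm, smul_mul_assoc, hA.2 X hX]⟩ }
  obtain ⟨m2, m1, m0, m3, m4⟩ := cmp_stab (L := L) (Z := Z) (fun W hW => ⟨lie_hh.br hW.1,
    fun X hX => by
      have h0 : hh ∈ blk {0} := blk_of_ad (by simp)
      have h1 : Np (hh * X - X * hh) := np_iff.2 ⟨lie_hh.br hX.lie, (blk _).sub_mem
        (blk_mul h0 (np_iff.1 hX).2 fun i hi j hj => by
          simp only [Set.mem_Ici, Set.mem_singleton_iff] at *
          omega)
        (blk_mul (np_iff.1 hX).2 h0 fun i hi j hj => by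
          simp only [Set.mem_Ici, Set.mem_singleton_iff] at *
          omega)⟩
      have h2 := hW.2 _ h1
      have h3 := hW.2 _ hX
      have h4 : X * (hh * W - W * hh) - (hh * W - W * hh) * X =
          -((hh * X - X * hh) * W - W * (hh * X - X * hh)) + hh * (X * W - W * X) -
            (X * W - W * X) * hh := by noncomm_ring
      rw [← sub_eq_zero, h4, h2, h3]
      simp⟩) ⟨hZ, h⟩
  obtain ⟨a, ha⟩ := deg2 m2.1 (cmp_mem 2 Z)
  obtain ⟨b, hb⟩ := degm2 m4.1 (cmp_mem (-2) Z)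
  have h1 : cmp (-1) Z = 0 := by
    rw [← br_neg (cmp_mem (-1) Z), m3.2 _ np_ep, sub_self, mul_zero, zero_mul, sub_self]
  have h2 : b = 0 := by
    have h3 := m4.2 _ np_ep
    rw [hb, mul_smul_comm, smul_mul_assoc, ← sub_eq_zero, ← smul_sub] at h3
    exact (smul_eq_zero.1 h3).resolve_right hh_ne
  refine ⟨a, ?_⟩
  rw [sum_cmp Z, cen1 m1.1 (cmp_mem 1 Z) m1.2, cen0 m0.1 (cmp_mem 0 Z) m0.2, h1, hb, h2, ha]
  simp

end Vale.Agent.P011Z.Cl.Lie6x

end
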